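import Vale.Agent.P141.H782.Max2
import Vale.Agent.P141.PL.H315.ConcreteProc

/-!
# P141, line W, scale-invariant version: Hölder and Finner for averages, Kolmogorov

* `avg_holder`: `E f^a g^b ≤ (E f)^a (E g)^b`, `a + b ≤ 1`;
* `finner`: `E F(x,y)^a G(x,z)^b H(y,z)^c ≤ (E F)^a (E G)^b (E H)^c`, sums of two exponents at
  most `1`;
* `avg_MF`: Kolmogorov for the maximal function of `H782/Max2`.
-/

namespace Vale.Agent.P141.H115g

open Finset
open Vale.Agent.P141.PL.H315 (avg avg_nonneg avg_rpow_le)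
open Vale.Agent.P141.H782 (MF MF_nonneg weak kolmogorov Sq Sq_nonneg bl card_bl)

noncomputable section

variable {X Y Z : Type*}

theorem avg_mono' {Q : Finset X} {f g : X → ℝ} (h : ∀ x ∈ Q, f x ≤ g x) : avg Q f ≤ avg Q g := by
  unfold avg
  exact mul_le_mul_of_nonneg_left (sum_le_sum h) (by positivity)

theorem avg_mul_right (Q : Finset X) (f : X → ℝ) (c : ℝ) :
    avg Q (fun x => f x * c) = avg Q f * c := by
  unfold avg; rw [← sum_mul, mul_assoc]

theorem avg_mul_left (Q : Finset X) (f : X → ℝ) (c : ℝ) :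
    avg Q (fun x => c * f x) = c * avg Q f := by
  unfold avg; rw [← mul_sum]; ring

theorem avg_comm (A : Finset X) (B : Finset Y) (f : X → Y → ℝ) :
    avg A (fun x => avg B fun y => f x y) = avg B fun y => avg A fun x => f x y := by
  unfold avg
  rw [← mul_sum, ← mul_sum, sum_comm]
  ring

theorem avg_prod (A : Finset X) (B : Finset Y) (f : X → Y → ℝ) :
    avg A (fun x => avg B fun y => f x y) = avg (A ×ˢ B) fun w => f w.1 w.2 := by
  unfold avg
  rw [← mul_sum, sum_product, card_product]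
  push_cast
  rw [mul_inv]
  ring

/-- Hölder for averages, exponents with sum one -/
theorem avg_holder_one (Q : Finset X) {f g : X → ℝ} (hf : ∀ x ∈ Q, 0 ≤ f x)
    (hg : ∀ x ∈ Q, 0 ≤ g x) {a b : ℝ} (ha : 0 < a) (hb : 0 < b) (hab : a + b = 1) :
    avg Q (fun x => f x ^ a * g x ^ b) ≤ avg Q f ^ a * avg Q g ^ b := by
  rcases Q.eq_empty_or_nonempty with rfl | hQ
  · simp only [avg, card_empty, Nat.cast_zero, inv_zero, sum_empty, mul_zero]
    rw [Real.zero_rpow ha.ne', zero_mul]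
  have hc : (0 : ℝ) < Q.card := by exact_mod_cast hQ.card_pos
  have hpq : (a⁻¹).HolderConjugate b⁻¹ := by
    refine Real.holderConjugate_iff.2 ⟨?_, by rw [inv_inv, inv_inv]; exact hab⟩
    rw [one_lt_inv₀ ha]; linarith
  have h := Real.inner_le_Lp_mul_Lq_of_nonneg Q hpq
    (f := fun x => f x ^ a) (g := fun x => g x ^ b)
    (fun x hx => Real.rpow_nonneg (hf x hx) _) (fun x hx => Real.rpow_nonneg (hg x hx) _)
  have e1 : ∑ x ∈ Q, (f x ^ a) ^ a⁻¹ = ∑ x ∈ Q, f x :=
    sum_congr rfl fun x hx => by rw [← Real.rpow_mul (hf x hx), mul_inv_cancel₀ ha.ne',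
      Real.rpow_one]
  have e2 : ∑ x ∈ Q, (g x ^ b) ^ b⁻¹ = ∑ x ∈ Q, g x :=
    sum_congr rfl fun x hx => by rw [← Real.rpow_mul (hg x hx), mul_inv_cancel₀ hb.ne',
      Real.rpow_one]
  rw [e1, e2, one_div, one_div, inv_inv, inv_inv] at h
  unfold avg
  have hF : 0 ≤ ∑ x ∈ Q, f x := sum_nonneg hf
  have hG : 0 ≤ ∑ x ∈ Q, g x := sum_nonneg hg
  have hi : 0 ≤ (Q.card : ℝ)⁻¹ := by positivity
  rw [Real.mul_rpow hi hF, Real.mul_rpow hi hG]
  have hcc : (Q.card : ℝ)⁻¹ = ((Q.card : ℝ)⁻¹) ^ a * ((Q.card : ℝ)⁻¹) ^ b := by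
    rw [← Real.rpow_add (by positivity), hab, Real.rpow_one]
  calc (Q.card : ℝ)⁻¹ * ∑ x ∈ Q, f x ^ a * g x ^ b ≤
        (Q.card : ℝ)⁻¹ * ((∑ x ∈ Q, f x) ^ a * (∑ x ∈ Q, g x) ^ b) :=
        mul_le_mul_of_nonneg_left h hi
    _ = (((Q.card : ℝ)⁻¹) ^ a * ((Q.card : ℝ)⁻¹) ^ b) *
          ((∑ x ∈ Q, f x) ^ a * (∑ x ∈ Q, g x) ^ b) := by rw [← hcc]
    _ = _ := by ring

/-- **Hölder for averages** -/
theorem avg_holder (Q : Finset X) {f g : X → ℝ} (hf : ∀ x ∈ Q, 0 ≤ f x)
    (hg : ∀ x ∈ Q, 0 ≤ g x) {a b : ℝ} (ha : 0 < a) (hb : 0 < b) (hab : a + b ≤ 1) :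
    avg Q (fun x => f x ^ a * g x ^ b) ≤ avg Q f ^ a * avg Q g ^ b := by
  rcases Q.eq_empty_or_nonempty with rfl | hQ
  · simp only [avg, card_empty, Nat.cast_zero, inv_zero, sum_empty, mul_zero]
    rw [Real.zero_rpow ha.ne', zero_mul]
  set t := a + b with ht
  have ht0 : 0 < t := by positivity
  have h1 := avg_holder_one Q hf hg (a := a / t) (b := b / t) (by positivity) (by positivity)
    (by rw [← add_div, ← ht, div_self ht0.ne'])
  have hA := avg_nonneg hf
  have hB := avg_nonneg hg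
  have hn : ∀ x ∈ Q, 0 ≤ f x ^ (a / t) * g x ^ (b / t) := fun x hx =>
    mul_nonneg (Real.rpow_nonneg (hf x hx) _) (Real.rpow_nonneg (hg x hx) _)
  have h2 := avg_rpow_le hQ hn ht0.le hab
  have e1 : avg Q (fun x => f x ^ a * g x ^ b) =
      avg Q fun x => (f x ^ (a / t) * g x ^ (b / t)) ^ t := by
    unfold avg
    congr 1
    refine sum_congr rfl fun x hx => ?_
    beta_reduce
    rw [Real.mul_rpow (Real.rpow_nonneg (hf x hx) _) (Real.rpow_nonneg (hg x hx) _),
      ← Real.rpow_mul (hf x hx), ← Real.rpow_mul (hg x hx), div_mul_cancel₀ _ ht0.ne',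
      div_mul_cancel₀ _ ht0.ne']
  rw [e1]
  refine h2.trans ((Real.rpow_le_rpow (avg_nonneg hn) h1 ht0.le).trans (le_of_eq ?_))
  rw [Real.mul_rpow (Real.rpow_nonneg hA _) (Real.rpow_nonneg hB _),
    ← Real.rpow_mul hA, ← Real.rpow_mul hB, div_mul_cancel₀ _ ht0.ne',
    div_mul_cancel₀ _ ht0.ne']

/-- **Finner on the triangle**, iterated averages -/
theorem finner_avg (A : Finset X) (B : Finset Y) (C : Finset Z) {F : X → Y → ℝ}
    {G : X → Z → ℝ} {H : Y → Z → ℝ} (hF : ∀ x ∈ A, ∀ y ∈ B, 0 ≤ F x y)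
    (hG : ∀ x ∈ A, ∀ z ∈ C, 0 ≤ G x z) (hH : ∀ y ∈ B, ∀ z ∈ C, 0 ≤ H y z)
    {a b c : ℝ} (ha : 0 < a) (hb : 0 < b) (hc : 0 < c) (hab : a + b ≤ 1) (hac : a + c ≤ 1)
    (hbc : b + c ≤ 1) :
    avg A (fun x => avg B fun y => avg C fun z => F x y ^ a * G x z ^ b * H y z ^ c) ≤
      avg (A ×ˢ B) (fun w => F w.1 w.2) ^ a * avg (A ×ˢ C) (fun w => G w.1 w.2) ^ b *
        avg (B ×ˢ C) (fun w => H w.1 w.2) ^ c := by
  have hf : ∀ y ∈ B, 0 ≤ avg A fun x => F x y := fun y hy => avg_nonneg fun x hx => hF x hx y hy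
  have hg : ∀ z ∈ C, 0 ≤ avg A fun x => G x z := fun z hz => avg_nonneg fun x hx => hG x hx z hz
  have hh : ∀ z ∈ C, 0 ≤ avg B fun y => H y z := fun z hz => avg_nonneg fun y hy => hH y hy z hz
  have eF : avg B (fun y => avg A fun x => F x y) = avg (A ×ˢ B) fun w => F w.1 w.2 := by
    rw [← avg_comm, avg_prod]
  have eG : avg C (fun z => avg A fun x => G x z) = avg (A ×ˢ C) fun w => G w.1 w.2 := by
    rw [← avg_comm, avg_prod]
  have eH : avg C (fun z => avg B fun y => H y z) = avg (B ×ˢ C) fun w => H w.1 w.2 := by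
    rw [← avg_comm, avg_prod]
  have hF0 : 0 ≤ avg (A ×ˢ B) fun w => F w.1 w.2 := by rw [← eF]; exact avg_nonneg hf
  -- exchange: first average over `x`
  have e1 : avg A (fun x => avg B fun y => avg C fun z => F x y ^ a * G x z ^ b * H y z ^ c) =
      avg C fun z => avg B fun y => (avg A fun x => F x y ^ a * G x z ^ b) * H y z ^ c := by
    rw [avg_comm]
    have h1 : ∀ y, avg A (fun x => avg C fun z => F x y ^ a * G x z ^ b * H y z ^ c) =
        avg C fun z => (avg A fun x => F x y ^ a * G x z ^ b) * H y z ^ c := by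
      intro y
      rw [avg_comm]
      congr 1
      funext z
      rw [avg_mul_right]
    simp only [h1]
    rw [avg_comm]
  rw [e1]
  have e2 : ∀ z ∈ C, avg B (fun y => (avg A fun x => F x y ^ a * G x z ^ b) * H y z ^ c) ≤
      avg (A ×ˢ B) (fun w => F w.1 w.2) ^ a *
        ((avg A fun x => G x z) ^ b * (avg B fun y => H y z) ^ c) := by
    intro z hz
    have h1 : ∀ y ∈ B, (avg A fun x => F x y ^ a * G x z ^ b) * H y z ^ c ≤
        ((avg A fun x => F x y) ^ a * H y z ^ c) * (avg A fun x => G x z) ^ b := by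
      intro y hy
      have h2 := avg_holder A (fun x hx => hF x hx y hy) (fun x hx => hG x hx z hz) ha hb hab
      calc _ ≤ ((avg A fun x => F x y) ^ a * (avg A fun x => G x z) ^ b) * H y z ^ c :=
            mul_le_mul_of_nonneg_right h2 (Real.rpow_nonneg (hH y hy z hz) _)
        _ = _ := by ring
    refine (avg_mono' h1).trans ?_
    rw [avg_mul_right]
    have h3 := avg_holder B hf (fun y hy => hH y hy z hz) ha hc hac
    rw [eF] at h3
    calc _ ≤ (avg (A ×ˢ B) (fun w => F w.1 w.2) ^ a * (avg B fun y => H y z) ^ c) *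
          (avg A fun x => G x z) ^ b :=
          mul_le_mul_of_nonneg_right h3 (Real.rpow_nonneg (hg z hz) _)
      _ = _ := by ring
  refine (avg_mono' e2).trans ?_
  rw [avg_mul_left]
  have h4 := avg_holder C hg hh hb hc hbc
  rw [eG, eH] at h4
  rw [mul_assoc]
  exact mul_le_mul_of_nonneg_left h4 (Real.rpow_nonneg hF0 _)

/-- **Kolmogorov for the maximal function**: averages of the powers below one -/
theorem avg_MF {F : ℤ → ℤ → ℝ} (hF : ∀ x y, 0 ≤ F x y) {l : ℕ} {a b : ℤ}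
    (hs : ∀ x y, F x y ≠ 0 → x / 2 ^ l = a ∧ y / 2 ^ l = b) {e : ℝ} (h0 : 0 < e) (h1 : e < 1) :
    avg (bl l a ×ˢ bl l b) (fun w => MF F l w ^ (1 - e)) ≤
      5 / e * (Sq F l a b / 4 ^ l) ^ (1 - e) := by
  have hS0 := Sq_nonneg hF l a b
  set S := Sq F l a b / 4 ^ l with hS
  have hSn : 0 ≤ S := by positivity
  have hSq : Sq F l a b = 4 ^ l * S := by rw [hS]; field_simp
  have hcard : ((bl l a ×ˢ bl l b).card : ℝ) = 9 * 4 ^ l := by
    rw [card_product, card_bl, card_bl]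
    push_cast
    rw [show (4 : ℝ) = 2 * 2 by norm_num, mul_pow]; ring
  rcases hSn.eq_or_lt with hz | hp
  · -- the function vanishes
    have h2 : ∀ w, MF F l w = 0 := by
      intro w
      by_contra hne
      have hpos : 0 < MF F l w := lt_of_le_of_ne (MF_nonneg F l w) (Ne.symm hne)
      have h3 := weak hF hs (lam := MF F l w / 2) (by positivity) {w}
      rw [hSq, ← hz, mul_zero, mul_zero] at h3
      have h4 : (({w} : Finset (ℤ × ℤ)).filter fun v => MF F l w / 2 < MF F l v) = {w} := by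
        rw [filter_eq_self]
        intro v hv
        rw [mem_singleton] at hv
        rw [hv]; linarith
      rw [h4, card_singleton, Nat.cast_one, mul_one] at h3
      linarith
    unfold avg
    simp only [h2]
    rw [Real.zero_rpow (by linarith)]
    simp only [sum_const_zero, mul_zero]
    exact mul_nonneg (by positivity) (Real.rpow_nonneg hSn _)
  · have hk := kolmogorov (bl l a ×ˢ bl l b) (fun w => MF F l w) (fun w _ => MF_nonneg _ _ _)
      (B := 9 * Sq F l a b) (by positivity) (fun lam hl => weak hF hs hl _) h0 h1.le hp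
    rw [hcard, hSq] at hk
    have hr : S * S ^ (-e) = S ^ (1 - e) := by
      rw [show 1 - e = 1 + -e by ring, Real.rpow_add hp, Real.rpow_one]
    unfold avg
    rw [hcard, inv_mul_le_iff₀ (by positivity)]
    refine hk.trans ?_
    have h9 : (9 : ℝ) ≤ 9 / e := by rw [le_div_iff₀ h0]; linarith
    have h10 : 0 ≤ 4 ^ l * S ^ (1 - e) := by positivity
    calc S ^ (1 - e) * (9 * 4 ^ l) + 4 / e * (9 * (4 ^ l * S)) * S ^ (-e)
        = 9 * (4 ^ l * S ^ (1 - e)) + 36 / e * (4 ^ l * (S * S ^ (-e))) := by ring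
      _ = 9 * (4 ^ l * S ^ (1 - e)) + 36 / e * (4 ^ l * S ^ (1 - e)) := by rw [hr]
      _ ≤ 9 / e * (4 ^ l * S ^ (1 - e)) + 36 / e * (4 ^ l * S ^ (1 - e)) := by gcongr
      _ = _ := by ring

end

end Vale.Agent.P141.H115g
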