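import Vale.Agent.P141.H782.Glue
import Vale.Agent.P141.H922.PairW
import Vale.Agent.P141.H115g.Fin3

/-!
# P141, line W, scale-invariant version: MIXED GLUE for the pair weight, absolute constant

`glueP`, `glueP_dot`: the statements of `H782.glue`, `H782.glue_dot` for the pair weight
`wP δ` (H922/PairW) with the absolute constant `CgP = 10 ^ 7`.
-/

namespace Vale.Agent.P141.H115g

open Finset
open Vale.Agent.P141.H315 (Grid dot)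
open Vale.Agent.P141.PL (Pt el)
open Vale.Agent.P141.PL.H315 (cube3 mem_cube3 gz card_cube3 avg iv mem_iv e12 e13 e23 Tri A2
  A2_nonneg avg_e12 avg_e13 avg_e23 atm card_iv avg_nonneg)
open Vale.Agent.P141.PL.H95 (gr mem_gr card_gr)
open Vale.Agent.P141.PL.H318 (ixs csz mem_gs a1 dot_a1)
open Vale.Agent.P141.H782 (MF MF_nonneg Sq Sq_nonneg bl card_bl bl3 mem_bl3 card_bl3 cut cut_nonneg
  cut_supp A2_eq A2_le_MF cube3_sub glue_abs)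
open Vale.Agent.P141.H922 (n2 n4 nN n2_nonneg n4_nonneg nN_nonneg pw3 pw3_nonneg wP wP_nonneg)

noncomputable section

/-! ### Norms by the averages over squares -/

theorem n2_12 (k : ℕ) (u : ℤ × ℤ → ℝ) (p : Pt) :
    n2 (cube3 k p) (e12 u) = √(A2 k u p.1 p.2.1) := by unfold n2; rw [avg_e12]

theorem n2_13 (k : ℕ) (u : ℤ × ℤ → ℝ) (p : Pt) :
    n2 (cube3 k p) (e13 u) = √(A2 k u p.1 p.2.2) := by unfold n2; rw [avg_e13]

theorem n2_23 (k : ℕ) (u : ℤ × ℤ → ℝ) (p : Pt) :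
    n2 (cube3 k p) (e23 u) = √(A2 k u p.2.1 p.2.2) := by unfold n2; rw [avg_e23]

theorem n4_12 (k : ℕ) (u : ℤ × ℤ → ℝ) (p : Pt) :
    n4 (cube3 k p) (e12 u) = √√(A2 k (fun w => u w ^ 2) p.1 p.2.1) := by
  unfold n4
  rw [← avg_e12]
  congr 3
  funext x
  unfold e12
  ring

theorem n4_13 (k : ℕ) (u : ℤ × ℤ → ℝ) (p : Pt) :
    n4 (cube3 k p) (e13 u) = √√(A2 k (fun w => u w ^ 2) p.1 p.2.2) := by
  unfold n4
  rw [← avg_e13]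
  congr 3
  funext x
  unfold e13
  ring

theorem n4_23 (k : ℕ) (u : ℤ × ℤ → ℝ) (p : Pt) :
    n4 (cube3 k p) (e23 u) = √√(A2 k (fun w => u w ^ 2) p.2.1 p.2.2) := by
  unfold n4
  rw [← avg_e23]
  congr 3
  funext x
  unfold e23
  ring

/-! ### The point functions -/

/-- dominates the `L²` norms on the neighbouring squares -/
def q2 (u : ℤ × ℤ → ℝ) (l : ℕ) (a b : ℤ) (w : ℤ × ℤ) : ℝ := √(MF (cut u l a b) l w)

/-- dominates the `L⁴` norms on the neighbouring squares -/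
def q4 (u : ℤ × ℤ → ℝ) (l : ℕ) (a b : ℤ) (w : ℤ × ℤ) : ℝ :=
  √√(MF (cut (fun w => u w ^ 2) l a b) l w)

/-- dominates the geometric means on the neighbouring squares -/
def qN (u : ℤ × ℤ → ℝ) (l : ℕ) (a b : ℤ) (w : ℤ × ℤ) : ℝ := √(q2 u l a b w * q4 u l a b w)

theorem q2_nonneg (u : ℤ × ℤ → ℝ) (l : ℕ) (a b : ℤ) (w : ℤ × ℤ) : 0 ≤ q2 u l a b w :=
  Real.sqrt_nonneg _

theorem q4_nonneg (u : ℤ × ℤ → ℝ) (l : ℕ) (a b : ℤ) (w : ℤ × ℤ) : 0 ≤ q4 u l a b w :=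
  Real.sqrt_nonneg _

theorem qN_nonneg (u : ℤ × ℤ → ℝ) (l : ℕ) (a b : ℤ) (w : ℤ × ℤ) : 0 ≤ qN u l a b w :=
  Real.sqrt_nonneg _

/-- the norms of the square of scale `k` of `(s, t)` by the values of the point functions -/
theorem sqrt_A2_le (u : ℤ × ℤ → ℝ) {k l : ℕ} (hkl : k ≤ l) {a b s t : ℤ}
    (hs : s / 2 ^ l = a / 2 ^ l) (ht : t / 2 ^ l = b / 2 ^ l) {w : ℤ × ℤ}
    (h1 : s / 2 ^ k - 1 ≤ w.1 / 2 ^ k ∧ w.1 / 2 ^ k ≤ s / 2 ^ k + 1)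
    (h2 : t / 2 ^ k - 1 ≤ w.2 / 2 ^ k ∧ w.2 / 2 ^ k ≤ t / 2 ^ k + 1) :
    √(A2 k u s t) ≤ q2 u l a b w ∧ √√(A2 k (fun w => u w ^ 2) s t) ≤ q4 u l a b w :=
  ⟨Real.sqrt_le_sqrt (A2_le_MF u hkl hs ht h1 h2),
    Real.sqrt_le_sqrt (Real.sqrt_le_sqrt (A2_le_MF _ hkl hs ht h1 h2))⟩

/-! ### Averages of the point functions -/

/-- the average of `q2 ^ (5/3)` over the block -/
theorem avg_q2 (u : ℤ × ℤ → ℝ) (l : ℕ) (a b : ℤ) :
    avg (bl l (a / 2 ^ l) ×ˢ bl l (b / 2 ^ l)) (fun w => q2 u l a b w ^ (5 / 3 : ℝ)) ≤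
      (8 * √(A2 l u a b)) ^ (5 / 3 : ℝ) := by
  have hA := A2_nonneg l u a b
  have h := avg_MF (fun x y => cut_nonneg u l a b x y) (fun x y h => cut_supp u l a b x y h)
    (e := 1 / 6) (by norm_num) (by norm_num)
  rw [← A2_eq u le_rfl rfl rfl] at h
  have e1 : ∀ x : ℝ, 0 ≤ x → √x ^ (5 / 3 : ℝ) = x ^ (1 - 1 / 6 : ℝ) := by
    intro x hx
    rw [Real.sqrt_eq_rpow, ← Real.rpow_mul hx]; norm_num
  have e2 : (fun w => q2 u l a b w ^ (5 / 3 : ℝ)) =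
      fun w => MF (cut u l a b) l w ^ (1 - 1 / 6 : ℝ) := by
    funext w; exact e1 _ (MF_nonneg _ _ _)
  rw [e2, Real.mul_rpow (by norm_num) (Real.sqrt_nonneg _), e1 _ hA]
  refine h.trans (mul_le_mul_of_nonneg_right ?_ (Real.rpow_nonneg hA _))
  have h8 : (8 : ℝ) ^ (5 / 3 : ℝ) = 32 := by
    rw [show (8 : ℝ) = 2 ^ (3 : ℝ) by norm_num, ← Real.rpow_mul (by norm_num)]; norm_num
  rw [h8]; norm_num

/-- the average of `qN ^ (5/2)` over the block -/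
theorem avg_qN (u : ℤ × ℤ → ℝ) (l : ℕ) (a b : ℤ) :
    avg (bl l (a / 2 ^ l) ×ˢ bl l (b / 2 ^ l)) (fun w => qN u l a b w ^ (5 / 2 : ℝ)) ≤
      (9 * √(√(A2 l u a b) * √√(A2 l (fun w => u w ^ 2) a b))) ^ (5 / 2 : ℝ) := by
  set u2 : ℤ × ℤ → ℝ := fun w => u w ^ 2 with hu2
  have hA := A2_nonneg l u a b
  have hB := A2_nonneg l u2 a b
  have h1 := avg_MF (fun x y => cut_nonneg u l a b x y) (fun x y h => cut_supp u l a b x y h)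
    (e := 1 / 16) (by norm_num) (by norm_num)
  have h2 := avg_MF (fun x y => cut_nonneg u2 l a b x y) (fun x y h => cut_supp u2 l a b x y h)
    (e := 1 / 16) (by norm_num) (by norm_num)
  rw [← A2_eq _ le_rfl rfl rfl] at h1 h2
  have key : ∀ x y : ℝ, 0 ≤ x → 0 ≤ y → √(√x * √√y) ^ (5 / 2 : ℝ) =
      (x ^ (1 - 1 / 16 : ℝ)) ^ (2 / 3 : ℝ) * (y ^ (1 - 1 / 16 : ℝ)) ^ (1 / 3 : ℝ) := by
    intro x y hx hy
    rw [Real.sqrt_eq_rpow, Real.sqrt_eq_rpow, Real.sqrt_eq_rpow, Real.sqrt_eq_rpow,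
      ← Real.rpow_mul hy, Real.mul_rpow (Real.rpow_nonneg hx _) (Real.rpow_nonneg hy _),
      ← Real.rpow_mul hx, ← Real.rpow_mul hy, Real.mul_rpow (Real.rpow_nonneg hx _)
      (Real.rpow_nonneg hy _), ← Real.rpow_mul hx, ← Real.rpow_mul hy, ← Real.rpow_mul hx,
      ← Real.rpow_mul hy]
    norm_num
  have e2 : (fun w => qN u l a b w ^ (5 / 2 : ℝ)) =
      fun w => (MF (cut u l a b) l w ^ (1 - 1 / 16 : ℝ)) ^ (2 / 3 : ℝ) *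
        (MF (cut u2 l a b) l w ^ (1 - 1 / 16 : ℝ)) ^ (1 / 3 : ℝ) := by
    funext w; exact key _ _ (MF_nonneg _ _ _) (MF_nonneg _ _ _)
  have h3 := avg_holder (bl l (a / 2 ^ l) ×ˢ bl l (b / 2 ^ l))
    (f := fun w => MF (cut u l a b) l w ^ (1 - 1 / 16 : ℝ))
    (g := fun w => MF (cut u2 l a b) l w ^ (1 - 1 / 16 : ℝ))
    (fun w _ => Real.rpow_nonneg (MF_nonneg _ _ _) _)
    (fun w _ => Real.rpow_nonneg (MF_nonneg _ _ _) _) (a := 2 / 3) (b := 1 / 3) (by norm_num)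
    (by norm_num) (by norm_num)
  have g1 : 0 ≤ avg (bl l (a / 2 ^ l) ×ˢ bl l (b / 2 ^ l))
      fun w => MF (cut u l a b) l w ^ (1 - 1 / 16 : ℝ) :=
    avg_nonneg fun w _ => Real.rpow_nonneg (MF_nonneg _ _ _) _
  have g2 : 0 ≤ avg (bl l (a / 2 ^ l) ×ˢ bl l (b / 2 ^ l))
      fun w => MF (cut u2 l a b) l w ^ (1 - 1 / 16 : ℝ) :=
    avg_nonneg fun w _ => Real.rpow_nonneg (MF_nonneg _ _ _) _
  have g3 : (5 : ℝ) / (1 / 16) = 80 := by norm_num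
  rw [g3] at h1 h2
  have h4 := mul_le_mul (Real.rpow_le_rpow g1 h1 (by norm_num : (0 : ℝ) ≤ 2 / 3))
    (Real.rpow_le_rpow g2 h2 (by norm_num : (0 : ℝ) ≤ 1 / 3)) (Real.rpow_nonneg g2 _)
    (Real.rpow_nonneg (mul_nonneg (by norm_num) (Real.rpow_nonneg hA _)) _)
  rw [e2]
  refine h3.trans (h4.trans ?_)
  rw [Real.mul_rpow (by norm_num) (Real.rpow_nonneg hA _),
    Real.mul_rpow (by norm_num) (Real.rpow_nonneg hB _),
    Real.mul_rpow (by norm_num) (Real.sqrt_nonneg _), key _ _ hA hB]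
  have h80 : (80 : ℝ) ^ (2 / 3 : ℝ) * 80 ^ (1 / 3 : ℝ) = 80 := by
    rw [← Real.rpow_add (by norm_num)]; norm_num
  have h9 : (80 : ℝ) ≤ 9 ^ (5 / 2 : ℝ) := by
    have : (9 : ℝ) ^ (5 / 2 : ℝ) = 243 := by
      rw [show (9 : ℝ) = 3 ^ (2 : ℝ) by norm_num, ← Real.rpow_mul (by norm_num)]; norm_num
    rw [this]; norm_num
  have hp : 0 ≤ (A2 l u a b ^ (1 - 1 / 16 : ℝ)) ^ (2 / 3 : ℝ) *
      (A2 l u2 a b ^ (1 - 1 / 16 : ℝ)) ^ (1 / 3 : ℝ) :=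
    mul_nonneg (Real.rpow_nonneg (Real.rpow_nonneg hA _) _)
      (Real.rpow_nonneg (Real.rpow_nonneg hB _) _)
  calc _ = (80 ^ (2 / 3 : ℝ) * 80 ^ (1 / 3 : ℝ)) *
        ((A2 l u a b ^ (1 - 1 / 16 : ℝ)) ^ (2 / 3 : ℝ) *
          (A2 l u2 a b ^ (1 - 1 / 16 : ℝ)) ^ (1 / 3 : ℝ)) := by ring
    _ ≤ _ := by rw [h80]; exact mul_le_mul_of_nonneg_right h9 hp

/-- one term of the pair weight: Finner with the exponents `5/2, 5/2, 5/3` -/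
theorem finner_term {A B C : Finset ℤ} {f : ℤ × ℤ → ℝ} {g : ℤ × ℤ → ℝ} {h : ℤ × ℤ → ℝ}
    (hf : ∀ w, 0 ≤ f w) (hg : ∀ w, 0 ≤ g w) (hh : ∀ w, 0 ≤ h w) {α β γ a b c : ℝ}
    (ha : 0 ≤ a) (hb : 0 ≤ b) (hc : 0 ≤ c) (hα : 0 < α) (hβ : 0 < β) (hγ : 0 < γ)
    (hαβ : α⁻¹ + β⁻¹ ≤ 1) (hαγ : α⁻¹ + γ⁻¹ ≤ 1) (hβγ : β⁻¹ + γ⁻¹ ≤ 1)
    (h1 : avg (A ×ˢ B) (fun w => f w ^ α) ≤ a ^ α) (h2 : avg (A ×ˢ C) (fun w => g w ^ β) ≤ b ^ β)
    (h3 : avg (B ×ˢ C) (fun w => h w ^ γ) ≤ c ^ γ) :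
    avg A (fun x => avg B fun y => avg C fun z => f (x, y) * g (x, z) * h (y, z)) ≤
      a * b * c := by
  have key := finner_avg A B C (F := fun x y => f (x, y) ^ α) (G := fun x z => g (x, z) ^ β)
    (H := fun y z => h (y, z) ^ γ) (fun _ _ _ _ => Real.rpow_nonneg (hf _) _)
    (fun _ _ _ _ => Real.rpow_nonneg (hg _) _) (fun _ _ _ _ => Real.rpow_nonneg (hh _) _)
    (inv_pos.2 hα) (inv_pos.2 hβ) (inv_pos.2 hγ) hαβ hαγ hβγ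
  have r : ∀ {x α : ℝ}, 0 ≤ x → 0 < α → (x ^ α) ^ α⁻¹ = x := fun {x α} hx hα => by
    rw [← Real.rpow_mul hx, mul_inv_cancel₀ hα.ne', Real.rpow_one]
  simp only [r (hf _) hα, r (hg _) hβ, r (hh _) hγ] at key
  refine key.trans ?_
  have k1 := Real.rpow_le_rpow (avg_nonneg fun w _ => Real.rpow_nonneg (hf w) _) h1
    (inv_nonneg.2 hα.le)
  have k2 := Real.rpow_le_rpow (avg_nonneg fun w _ => Real.rpow_nonneg (hg w) _) h2
    (inv_nonneg.2 hβ.le)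
  have k3 := Real.rpow_le_rpow (avg_nonneg fun w _ => Real.rpow_nonneg (hh w) _) h3
    (inv_nonneg.2 hγ.le)
  rw [r ha hα] at k1
  rw [r hb hβ] at k2
  rw [r hc hγ] at k3
  have n1 : 0 ≤ avg (A ×ˢ B) (fun w => f w ^ α) ^ α⁻¹ :=
    Real.rpow_nonneg (avg_nonneg fun w _ => Real.rpow_nonneg (hf w) _) _
  have n2 : 0 ≤ avg (A ×ˢ C) (fun w => g w ^ β) ^ β⁻¹ :=
    Real.rpow_nonneg (avg_nonneg fun w _ => Real.rpow_nonneg (hg w) _) _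
  have n3 : 0 ≤ avg (B ×ˢ C) (fun w => h w ^ γ) ^ γ⁻¹ :=
    Real.rpow_nonneg (avg_nonneg fun w _ => Real.rpow_nonneg (hh w) _) _
  exact mul_le_mul (mul_le_mul k1 k2 n2 ha) k3 n3 (mul_nonneg ha hb)

/-- the point function for the three faces -/
def MMP (δ : ℝ) (l : ℕ) (q : Pt) (u : Tri) (y : Pt) : ℝ :=
  δ * (qN u.1 l q.1 q.2.1 (y.1, y.2.1) * qN u.2.1 l q.1 q.2.2 (y.1, y.2.2) *
      q2 u.2.2 l q.2.1 q.2.2 (y.2.1, y.2.2) +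
    qN u.1 l q.1 q.2.1 (y.1, y.2.1) * q2 u.2.1 l q.1 q.2.2 (y.1, y.2.2) *
      qN u.2.2 l q.2.1 q.2.2 (y.2.1, y.2.2) +
    q2 u.1 l q.1 q.2.1 (y.1, y.2.1) * qN u.2.1 l q.1 q.2.2 (y.1, y.2.2) *
      qN u.2.2 l q.2.1 q.2.2 (y.2.1, y.2.2))

theorem MMP_nonneg {δ : ℝ} (hδ : 0 ≤ δ) (l : ℕ) (q : Pt) (u : Tri) (y : Pt) :
    0 ≤ MMP δ l q u y := by
  unfold MMP
  have h1 := qN_nonneg u.1 l q.1 q.2.1 (y.1, y.2.1)
  have h2 := qN_nonneg u.2.1 l q.1 q.2.2 (y.1, y.2.2)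
  have h3 := qN_nonneg u.2.2 l q.2.1 q.2.2 (y.2.1, y.2.2)
  have h4 := q2_nonneg u.1 l q.1 q.2.1 (y.1, y.2.1)
  have h5 := q2_nonneg u.2.1 l q.1 q.2.2 (y.1, y.2.2)
  have h6 := q2_nonneg u.2.2 l q.2.1 q.2.2 (y.2.1, y.2.2)
  positivity

/-- the density of the pair weight on the neighbouring cubes -/
theorem wP_le_MMP {δ : ℝ} (hδ : 0 ≤ δ) {k l : ℕ} (hkl : k ≤ l) {q z y : Pt}
    (hz : z ∈ cube3 l q) (hy : y ∈ bl3 k z) (u : Tri) :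
    wP δ (cube3 k z) u ≤ 8 ^ k * MMP δ l q u y := by
  have hz' := mem_cube3.1 hz
  rw [mem_iv, mem_iv, mem_iv] at hz'
  obtain ⟨z1, z2, z3⟩ := hz'
  obtain ⟨y1, y2, y3⟩ := mem_bl3.1 hy
  obtain ⟨a1, b1⟩ := sqrt_A2_le u.1 hkl z1 z2 (w := (y.1, y.2.1)) y1 y2
  obtain ⟨a2, b2⟩ := sqrt_A2_le u.2.1 hkl z1 z3 (w := (y.1, y.2.2)) y1 y3
  obtain ⟨a3, b3⟩ := sqrt_A2_le u.2.2 hkl z2 z3 (w := (y.2.1, y.2.2)) y2 y3
  have d1 : nN (cube3 k z) (e12 u.1) ≤ qN u.1 l q.1 q.2.1 (y.1, y.2.1) := by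
    unfold nN qN
    rw [n2_12, n4_12]
    exact Real.sqrt_le_sqrt (mul_le_mul a1 b1 (Real.sqrt_nonneg _) (q2_nonneg _ _ _ _ _))
  have d2 : nN (cube3 k z) (e13 u.2.1) ≤ qN u.2.1 l q.1 q.2.2 (y.1, y.2.2) := by
    unfold nN qN
    rw [n2_13, n4_13]
    exact Real.sqrt_le_sqrt (mul_le_mul a2 b2 (Real.sqrt_nonneg _) (q2_nonneg _ _ _ _ _))
  have d3 : nN (cube3 k z) (e23 u.2.2) ≤ qN u.2.2 l q.2.1 q.2.2 (y.2.1, y.2.2) := by
    unfold nN qN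
    rw [n2_23, n4_23]
    exact Real.sqrt_le_sqrt (mul_le_mul a3 b3 (Real.sqrt_nonneg _) (q2_nonneg _ _ _ _ _))
  have c1 : n2 (cube3 k z) (e12 u.1) ≤ q2 u.1 l q.1 q.2.1 (y.1, y.2.1) := by
    rw [n2_12]; exact a1
  have c2 : n2 (cube3 k z) (e13 u.2.1) ≤ q2 u.2.1 l q.1 q.2.2 (y.1, y.2.2) := by
    rw [n2_13]; exact a2
  have c3 : n2 (cube3 k z) (e23 u.2.2) ≤ q2 u.2.2 l q.2.1 q.2.2 (y.2.1, y.2.2) := by
    rw [n2_23]; exact a3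
  have s1 := nN_nonneg (cube3 k z) (e12 u.1)
  have s2 := nN_nonneg (cube3 k z) (e13 u.2.1)
  have s3 := nN_nonneg (cube3 k z) (e23 u.2.2)
  have r1 := n2_nonneg (cube3 k z) (e12 u.1)
  have r2 := n2_nonneg (cube3 k z) (e13 u.2.1)
  have r3 := n2_nonneg (cube3 k z) (e23 u.2.2)
  have t1 := mul_le_mul (mul_le_mul d1 d2 s2 (s1.trans d1)) c3 r3
    (mul_nonneg (s1.trans d1) (s2.trans d2))
  have t2 := mul_le_mul (mul_le_mul d1 c2 r2 (s1.trans d1)) d3 s3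
    (mul_nonneg (s1.trans d1) (r2.trans c2))
  have t3 := mul_le_mul (mul_le_mul c1 d2 s2 (r1.trans c1)) d3 s3
    (mul_nonneg (r1.trans c1) (s2.trans d2))
  unfold wP MMP pw3
  rw [card_cube3]
  push_cast
  have h8 : (0 : ℝ) ≤ 8 ^ k * δ := by positivity
  have := mul_le_mul_of_nonneg_left (add_le_add (add_le_add t1 t2) t3) h8
  calc _ = 8 ^ k * δ * (nN (cube3 k z) (e12 u.1) * nN (cube3 k z) (e13 u.2.1) *
        n2 (cube3 k z) (e23 u.2.2) + nN (cube3 k z) (e12 u.1) * n2 (cube3 k z) (e13 u.2.1) *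
        nN (cube3 k z) (e23 u.2.2) + n2 (cube3 k z) (e12 u.1) * nN (cube3 k z) (e13 u.2.1) *
        nN (cube3 k z) (e23 u.2.2)) := by ring
    _ ≤ _ := this
    _ = _ := by ring

/-- the constant of the gluing -/
def CgP : ℝ := 10 ^ 7

theorem CgP_pos : 0 < CgP := by unfold CgP; norm_num

theorem sum_MMP {δ : ℝ} (hδ : 0 ≤ δ) (l : ℕ) (q : Pt) (u : Tri) :
    432 * ∑ y ∈ bl3 l q, MMP δ l q u y ≤ CgP * wP δ (cube3 l q) u := by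
  set A := bl l (q.1 / 2 ^ l)
  set B := bl l (q.2.1 / 2 ^ l)
  set C := bl l (q.2.2 / 2 ^ l)
  have hN : ∀ (v : ℤ × ℤ → ℝ) (a b : ℤ), 0 ≤ 9 * √(√(A2 l v a b) * √√(A2 l (fun w => v w ^ 2) a b)) :=
    fun v a b => by positivity
  have hE : ∀ (v : ℤ × ℤ → ℝ) (a b : ℤ), 0 ≤ 8 * √(A2 l v a b) := fun v a b => by positivity
  have i1 : (5 / 2 : ℝ)⁻¹ + (5 / 2 : ℝ)⁻¹ ≤ 1 := by norm_num
  have i2 : (5 / 2 : ℝ)⁻¹ + (5 / 3 : ℝ)⁻¹ ≤ 1 := by norm_num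
  have i3 : (5 / 3 : ℝ)⁻¹ + (5 / 2 : ℝ)⁻¹ ≤ 1 := by norm_num
  have T1 := finner_term (A := A) (B := B) (C := C) (qN_nonneg u.1 l q.1 q.2.1)
    (qN_nonneg u.2.1 l q.1 q.2.2) (q2_nonneg u.2.2 l q.2.1 q.2.2) (hN _ _ _) (hN _ _ _)
    (hE _ _ _) (by norm_num) (by norm_num) (by norm_num) i1 i2 i2 (avg_qN u.1 l q.1 q.2.1)
    (avg_qN u.2.1 l q.1 q.2.2) (avg_q2 u.2.2 l q.2.1 q.2.2)
  have T2 := finner_term (A := A) (B := B) (C := C) (qN_nonneg u.1 l q.1 q.2.1)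
    (q2_nonneg u.2.1 l q.1 q.2.2) (qN_nonneg u.2.2 l q.2.1 q.2.2) (hN _ _ _) (hE _ _ _)
    (hN _ _ _) (by norm_num) (by norm_num) (by norm_num) i2 i1 i3 (avg_qN u.1 l q.1 q.2.1)
    (avg_q2 u.2.1 l q.1 q.2.2) (avg_qN u.2.2 l q.2.1 q.2.2)
  have T3 := finner_term (A := A) (B := B) (C := C) (q2_nonneg u.1 l q.1 q.2.1)
    (qN_nonneg u.2.1 l q.1 q.2.2) (qN_nonneg u.2.2 l q.2.1 q.2.2) (hE _ _ _) (hN _ _ _)
    (hN _ _ _) (by norm_num) (by norm_num) (by norm_num) i3 i3 i1 (avg_q2 u.1 l q.1 q.2.1)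
    (avg_qN u.2.1 l q.1 q.2.2) (avg_qN u.2.2 l q.2.1 q.2.2)
  have hcube : ∀ F : Pt → ℝ, ∑ y ∈ bl3 l q, F y =
      27 * 8 ^ l * avg A (fun x => avg B fun y => avg C fun z => F (x, y, z)) := by
    intro F
    have hA : (A.card : ℝ) = 3 * 2 ^ l := by rw [card_bl]; push_cast; ring
    have hB : (B.card : ℝ) = 3 * 2 ^ l := by rw [card_bl]; push_cast; ring
    have hC : (C.card : ℝ) = 3 * 2 ^ l := by rw [card_bl]; push_cast; ring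
    unfold avg
    rw [hA, hB, hC, ← mul_sum]
    simp only [← mul_sum]
    have h8 : (8 : ℝ) ^ l = 2 ^ l * 2 ^ l * 2 ^ l := by
      rw [← mul_pow, ← mul_pow]; norm_num
    rw [h8]
    unfold bl3
    rw [sum_product]
    simp only [sum_product]
    field_simp
    norm_num
    exact mul_comm _ _
  have hsum : ∑ y ∈ bl3 l q, MMP δ l q u y = δ * (27 * 8 ^ l) *
      (avg A (fun x => avg B fun y => avg C fun z => qN u.1 l q.1 q.2.1 (x, y) *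
          qN u.2.1 l q.1 q.2.2 (x, z) * q2 u.2.2 l q.2.1 q.2.2 (y, z)) +
        avg A (fun x => avg B fun y => avg C fun z => qN u.1 l q.1 q.2.1 (x, y) *
          q2 u.2.1 l q.1 q.2.2 (x, z) * qN u.2.2 l q.2.1 q.2.2 (y, z)) +
        avg A (fun x => avg B fun y => avg C fun z => q2 u.1 l q.1 q.2.1 (x, y) *
          qN u.2.1 l q.1 q.2.2 (x, z) * qN u.2.2 l q.2.1 q.2.2 (y, z))) := by
    unfold MMP
    rw [← mul_sum, sum_add_distrib, sum_add_distrib, hcube, hcube, hcube]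
    ring
  rw [hsum]
  have hT := add_le_add (add_le_add T1 T2) T3
  have h0 : 0 ≤ δ * (27 * 8 ^ l) := by positivity
  have h1 := mul_le_mul_of_nonneg_left hT h0
  unfold wP pw3 CgP nN
  rw [n2_12, n2_13, n2_23, n4_12, n4_13, n4_23, card_cube3]
  push_cast
  set a1 := √(√(A2 l u.1 q.1 q.2.1) * √√(A2 l (fun w => u.1 w ^ 2) q.1 q.2.1))
  set a2 := √(√(A2 l u.2.1 q.1 q.2.2) * √√(A2 l (fun w => u.2.1 w ^ 2) q.1 q.2.2))
  set a3 := √(√(A2 l u.2.2 q.2.1 q.2.2) * √√(A2 l (fun w => u.2.2 w ^ 2) q.2.1 q.2.2))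
  have p1 : 0 ≤ a1 := Real.sqrt_nonneg _
  have p2 : 0 ≤ a2 := Real.sqrt_nonneg _
  have p3 : 0 ≤ a3 := Real.sqrt_nonneg _
  set b1 := √(A2 l u.1 q.1 q.2.1)
  set b2 := √(A2 l u.2.1 q.1 q.2.2)
  set b3 := √(A2 l u.2.2 q.2.1 q.2.2)
  have r1 : 0 ≤ b1 := Real.sqrt_nonneg _
  have r2 : 0 ≤ b2 := Real.sqrt_nonneg _
  have r3 : 0 ≤ b3 := Real.sqrt_nonneg _
  have hpos : 0 ≤ δ * 8 ^ l * (a1 * a2 * b3 + a1 * a3 * b2 + a2 * a3 * b1) := by positivity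
  calc _ ≤ 432 * (δ * (27 * 8 ^ l) * (9 * a1 * (9 * a2) * (8 * b3) +
        9 * a1 * (8 * b2) * (9 * a3) + 8 * b1 * (9 * a2) * (9 * a3))) := by linarith
    _ = 7558272 * (δ * 8 ^ l * (a1 * a2 * b3 + a1 * a3 * b2 + a2 * a3 * b1)) := by ring
    _ ≤ 10 ^ 7 * (δ * 8 ^ l * (a1 * a2 * b3 + a1 * a3 * b2 + a2 * a3 * b1)) := by
        have : (7558272 : ℝ) ≤ 10 ^ 7 := by norm_num
        exact mul_le_mul_of_nonneg_right this hpos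

open Classical in
/-- **MIXED GLUE, pair weight**: uniformity of a lift on cells of different scales `≤ l` gives
uniformity on the cubes of scale `l`, absolute constant. -/
theorem glueP {c0 : ℕ} {σ : ℤ} {c : Pt} (hc : csz c ≤ 2 ^ c0) {δ : ℝ} (hδ : 0 ≤ δ)
    {l : ℕ} {m : ℤ → ℕ} {A : ℤ → Prop}
    (hm : ∀ x y, A x → ixs c0 σ (m x) y = ixs c0 σ (m x) x → A y ∧ m y = m x)
    (hml : ∀ x, A x → m x ≤ l) {G : ℤ → ℝ} (q : Pt) (u : Tri)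
    (h : ∀ x, A x → ∀ z ∈ cube3 l q,
      |dot ((gr c0 σ).cube (m x) x) G (a1 c (m x) (z, u))| ≤ wP δ (cube3 (m x) z) u) :
    |∑ y ∈ cube3 l q, (if A (el c y) then G (el c y) else 0) * atm u y| ≤
      CgP * wP δ (cube3 l q) u := by
  have key := glue_abs hc (l := l) (q := q) hm hml (φ := fun y => G (el c y) * atm u y)
    (w := fun k z => wP δ (cube3 k z) u) (fun k z => wP_nonneg hδ _ _)
    (fun x hx z hz => by
      have h2 := h x hx z hz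
      rw [dot_a1] at h2
      refine le_trans (le_of_eq ?_) h2
      congr 1
      refine sum_congr rfl fun y _ => ?_
      by_cases hy : ixs c0 σ (m x) (el c y) = ixs c0 σ (m x) x
      · rw [if_pos hy, if_pos (mem_gs.2 hy)]
      · rw [if_neg hy, if_neg (fun h' => hy (mem_gs.1 h'))])
    (M := MMP δ l q u) (fun y => MMP_nonneg hδ l q u y)
    (fun k hk z hz y hy => wP_le_MMP hδ hk hz hy u)
  refine le_trans (le_of_eq ?_) (key.trans (sum_MMP hδ l q u))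
  congr 1
  refine sum_congr rfl fun y _ => ?_
  by_cases hy : A (el c y)
  · rw [if_pos hy, if_pos hy]
  · rw [if_neg hy, if_neg hy, zero_mul]

open Classical in
/-- **MIXED GLUE on a cell, pair weight** -/
theorem glueP_dot {c0 : ℕ} {σ : ℤ} {c : Pt} (hc : csz c ≤ 2 ^ c0) {δ : ℝ} (hδ : 0 ≤ δ)
    {l : ℕ} {x0 : ℤ} {m : ℤ → ℕ} {A : ℤ → Prop}
    (hm : ∀ x ∈ (gr c0 σ).cube l x0, ∀ y, A x → ixs c0 σ (m x) y = ixs c0 σ (m x) x →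
      A y ∧ m y = m x)
    (hml : ∀ x ∈ (gr c0 σ).cube l x0, A x → m x ≤ l) {G : ℤ → ℝ} (q : Pt) (u : Tri)
    (h : ∀ x ∈ (gr c0 σ).cube l x0, A x → ∀ z ∈ cube3 l q,
      |dot ((gr c0 σ).cube (m x) x) G (a1 c (m x) (z, u))| ≤ wP δ (cube3 (m x) z) u) :
    |dot ((gr c0 σ).cube l x0) (fun y => if A y then G y else 0) (a1 c l (q, u))| ≤
      CgP * wP δ (cube3 l q) u := by
  have key := glueP hc hδ (l := l) (m := m)
    (A := fun x => x ∈ (gr c0 σ).cube l x0 ∧ A x)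
    (fun x y hx hy => by
      obtain ⟨h2, h3⟩ := hm x hx.1 y hx.2 hy
      have hl := hml x hx.1 hx.2
      have h4 : y ∈ (gr c0 σ).cube l x := (gr c0 σ).sub_le hl x (mem_gs.2 hy)
      have h5 : (gr c0 σ).cube l x = (gr c0 σ).cube l x0 := (gr c0 σ).eq_of_mem l x0 x hx.1
      exact ⟨⟨h5 ▸ h4, h2⟩, h3⟩)
    (fun x hx => hml x hx.1 hx.2) (G := G) q u (fun x hx => h x hx.1 hx.2)
  rw [dot_a1]
  refine le_trans (le_of_eq ?_) key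
  congr 1
  refine sum_congr rfl fun y _ => ?_
  by_cases hy : el c y ∈ (gr c0 σ).cube l x0
  · by_cases hA : A (el c y)
    · rw [if_pos hy, if_pos hA, if_pos ⟨hy, hA⟩]
    · rw [if_pos hy, if_neg hA, if_neg (fun h' => hA h'.2)]
  · rw [if_neg hy, if_neg (fun h' => hy h'.1), zero_mul]

end

end Vale.Agent.P141.H115g
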