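import Vale.Agent.P141.H922.PairS1

/-!
# P141, line W: the natural weight `W_g` (insurance for row 7126)

`v2 Q f g = E f² g²`; `wG δ Q u = δ |Q| (n2 n2 n2)^(1/3) (v2 v2 v2)^(1/6)`, i.e.
`δ |Q|` times the product of the sixth roots of the six averages
`E a₁₂², E a₁₃², E a₂₃², E a₁₂² a₁₃², E a₁₂² a₂₃², E a₁₃² a₂₃²`.

* `wG_eq`: the form with six sixth roots (`ga u i`, `i : Fin 6`);
* `wG_super`: superadditivity, constant `1`; `avg_gp_le`: the same for averages;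
* calculus: `wG_nonneg`, `wG_smul`, `wG_mono`, `wG_cut`, `wG_congr`, `wG_le_of_subset`,
  `wG_delta`, `wG_eq_one`.
-/

namespace Vale.Agent.P141.H115g

open Finset
open Vale.Agent.P141.PL (Pt)
open Vale.Agent.P141.PL.H315 (avg avg_nonneg cube3 gz card_cube3 e12 e13 e23 Tri)
open Vale.Agent.P141.H922 (n2 n2_nonneg avg_avg_cube avg_mono avg_congr)

noncomputable section

/-- the average of the product of the squares -/
def v2 {X : Type*} (Q : Finset X) (f g : X → ℝ) : ℝ := avg Q (fun y => f y ^ 2 * g y ^ 2)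

/-- **the natural weight** of an atom on a finite set -/
def wG (δ : ℝ) (Q : Finset (ℤ × ℤ × ℤ)) (u : Tri) : ℝ :=
  δ * Q.card * (n2 Q (e12 u.1) * n2 Q (e13 u.2.1) * n2 Q (e23 u.2.2)) ^ (1 / 3 : ℝ) *
    (v2 Q (e12 u.1) (e13 u.2.1) * v2 Q (e12 u.1) (e23 u.2.2) *
      v2 Q (e13 u.2.1) (e23 u.2.2)) ^ (1 / 6 : ℝ)

theorem v2_nonneg {X : Type*} (Q : Finset X) (f g : X → ℝ) : 0 ≤ v2 Q f g :=
  avg_nonneg fun _ _ => mul_nonneg (sq_nonneg _) (sq_nonneg _)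

theorem v2_comm {X : Type*} (Q : Finset X) (f g : X → ℝ) : v2 Q f g = v2 Q g f := by
  unfold v2; congr 1; funext y; ring

/-- the six nonnegative functions -/
def ga (u : Tri) : Fin 6 → Pt → ℝ :=
  ![fun y => e12 u.1 y ^ 2, fun y => e13 u.2.1 y ^ 2, fun y => e23 u.2.2 y ^ 2,
    fun y => e12 u.1 y ^ 2 * e13 u.2.1 y ^ 2, fun y => e12 u.1 y ^ 2 * e23 u.2.2 y ^ 2,
    fun y => e13 u.2.1 y ^ 2 * e23 u.2.2 y ^ 2]

theorem ga_nonneg (u : Tri) (i : Fin 6) (y : Pt) : 0 ≤ ga u i y := by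
  fin_cases i <;> simp [ga] <;> positivity

/-- the product of the six sixth roots -/
def gp (Q : Finset Pt) (u : Tri) : ℝ := ∏ i, avg Q (ga u i) ^ (1 / 6 : ℝ)

theorem gp_nonneg (Q : Finset Pt) (u : Tri) : 0 ≤ gp Q u :=
  prod_nonneg fun i _ => Real.rpow_nonneg (avg_nonneg fun y _ => ga_nonneg u i y) _

theorem wG_eq (δ : ℝ) (Q : Finset Pt) (u : Tri) : wG δ Q u = δ * Q.card * gp Q u := by
  unfold wG gp
  rw [Fin.prod_univ_six]
  have s : ∀ x : ℝ, 0 ≤ x → √x ^ (1 / 3 : ℝ) = x ^ (1 / 6 : ℝ) := fun x hx => by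
    rw [Real.sqrt_eq_rpow, ← Real.rpow_mul hx]; norm_num
  have a1 : 0 ≤ avg Q fun y => e12 u.1 y ^ 2 := avg_nonneg fun _ _ => sq_nonneg _
  have a2 : 0 ≤ avg Q fun y => e13 u.2.1 y ^ 2 := avg_nonneg fun _ _ => sq_nonneg _
  have a3 : 0 ≤ avg Q fun y => e23 u.2.2 y ^ 2 := avg_nonneg fun _ _ => sq_nonneg _
  rw [Real.mul_rpow (mul_nonneg (n2_nonneg _ _) (n2_nonneg _ _)) (n2_nonneg _ _),
    Real.mul_rpow (n2_nonneg _ _) (n2_nonneg _ _),
    Real.mul_rpow (mul_nonneg (v2_nonneg _ _ _) (v2_nonneg _ _ _)) (v2_nonneg _ _ _),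
    Real.mul_rpow (v2_nonneg _ _ _) (v2_nonneg _ _ _)]
  unfold n2 v2
  rw [s _ a1, s _ a2, s _ a3]
  simp only [ga, Matrix.cons_val_zero, Matrix.cons_val_one, Matrix.cons_val]
  ring

theorem wG_nonneg {δ : ℝ} (hδ : 0 ≤ δ) (Q : Finset Pt) (u : Tri) : 0 ≤ wG δ Q u := by
  rw [wG_eq]; exact mul_nonneg (mul_nonneg hδ (Nat.cast_nonneg _)) (gp_nonneg Q u)

/-! ### Hölder with several exponents -/

/-- **Hölder for averages, several functions**, exponents with sum one -/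
theorem avg_prod_rpow_le {X ι : Type*} [Fintype ι] (Q : Finset X) (w : ι → ℝ)
    (hw : ∀ i, 0 < w i) (hw1 : ∑ i, w i = 1) (f : ι → X → ℝ) (hf : ∀ i, ∀ x ∈ Q, 0 ≤ f i x) :
    avg Q (fun x => ∏ i, f i x ^ w i) ≤ ∏ i, avg Q (f i) ^ w i := by
  have hn : ∀ i, 0 ≤ avg Q (f i) := fun i => avg_nonneg (hf i)
  rcases Q.eq_empty_or_nonempty with rfl | hQ
  · have h0 : avg (∅ : Finset X) (fun x => ∏ i, f i x ^ w i) = 0 := by simp [avg]
    rw [h0]
    exact prod_nonneg fun i _ => Real.rpow_nonneg (hn i) _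
  have hc : (0 : ℝ) < Q.card := by exact_mod_cast hQ.card_pos
  by_cases hz : ∃ i, avg Q (f i) = 0
  · obtain ⟨i, hi⟩ := hz
    have h1 : ∀ x ∈ Q, f i x = 0 := by
      unfold avg at hi
      have h2 : ∑ x ∈ Q, f i x = 0 := by
        rcases mul_eq_zero.1 hi with h | h
        · exact absurd h (by positivity)
        · exact h
      exact (sum_eq_zero_iff_of_nonneg (hf i)).1 h2
    have h2 : avg Q (fun x => ∏ i, f i x ^ w i) = 0 := by
      unfold avg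
      rw [sum_eq_zero fun x hx => prod_eq_zero (mem_univ i)
        (by rw [h1 x hx, Real.zero_rpow (hw i).ne']), mul_zero]
    rw [h2]
    exact prod_nonneg fun i _ => Real.rpow_nonneg (hn i) _
  · push Not at hz
    have hp : ∀ i, 0 < avg Q (f i) := fun i => lt_of_le_of_ne (hn i) (Ne.symm (hz i))
    have hP : 0 < ∏ i, avg Q (f i) ^ w i := prod_pos fun i _ => Real.rpow_pos_of_pos (hp i) _
    have key : ∀ x ∈ Q, ∏ i, f i x ^ w i ≤
        (∏ i, avg Q (f i) ^ w i) * ∑ i, w i * (f i x / avg Q (f i)) := by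
      intro x hx
      have h := Real.geom_mean_le_arith_mean_weighted univ w (fun i => f i x / avg Q (f i))
        (fun i _ => (hw i).le) hw1 (fun i _ => div_nonneg (hf i x hx) (hn i))
      have e : ∏ i, f i x ^ w i = (∏ i, avg Q (f i) ^ w i) *
          ∏ i, (f i x / avg Q (f i)) ^ w i := by
        rw [← prod_mul_distrib]
        refine prod_congr rfl fun i _ => ?_
        rw [← Real.mul_rpow (hn i) (div_nonneg (hf i x hx) (hn i)),
          mul_div_cancel₀ _ (hp i).ne']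
      rw [e]
      exact mul_le_mul_of_nonneg_left h hP.le
    refine (avg_mono key).trans (le_of_eq ?_)
    have e2 : avg Q (fun x => (∏ i, avg Q (f i) ^ w i) * ∑ i, w i * (f i x / avg Q (f i))) =
        (∏ i, avg Q (f i) ^ w i) * ∑ i, w i * (avg Q (f i) / avg Q (f i)) := by
      unfold avg
      rw [← mul_sum, sum_comm]
      simp only [← mul_sum, ← sum_div]
      rw [mul_left_comm]
      congr 1
      rw [mul_sum]
      refine sum_congr rfl fun i _ => ?_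
      ring
    rw [e2]
    have e3 : ∑ i, w i * (avg Q (f i) / avg Q (f i)) = 1 := by
      rw [← hw1]
      exact sum_congr rfl fun i _ => by rw [div_self (hz i), mul_one]
    rw [e3, mul_one]

/-! ### Superadditivity -/

/-- averages of the product of the six roots over the subcubes -/
theorem avg_gp_le {k l : ℕ} (hkl : k ≤ l) (p : Pt) (u : Tri) :
    avg (cube3 l p) (fun z => gp (cube3 k z) u) ≤ gp (cube3 l p) u := by
  have h := avg_prod_rpow_le (cube3 l p) (fun _ : Fin 6 => (1 / 6 : ℝ)) (fun _ => by norm_num)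
    (by rw [Fin.sum_univ_six]; norm_num) (fun i z => avg (cube3 k z) (ga u i))
    (fun i z _ => avg_nonneg fun y _ => ga_nonneg u i y)
  refine h.trans (le_of_eq ?_)
  unfold gp
  refine prod_congr rfl fun i _ => ?_
  rw [avg_avg_cube hkl]

/-- **SUPERADDITIVITY of the natural weight**, constant one -/
theorem wG_super {δ : ℝ} (hδ : 0 ≤ δ) {k l : ℕ} (hkl : k ≤ l) (p : Pt) (u : Tri) :
    ∑ z ∈ cube3 l p, (8 ^ k : ℝ)⁻¹ * wG δ (cube3 k z) u ≤ wG δ (cube3 l p) u := by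
  have hc : (0 : ℝ) < (cube3 l p).card := by
    exact_mod_cast Finset.card_pos.mpr ⟨p, gz.mem l p⟩
  have h5 := avg_gp_le hkl p u
  unfold avg at h5
  rw [inv_mul_le_iff₀ hc] at h5
  have e1 : ∀ z ∈ cube3 l p, (8 ^ k : ℝ)⁻¹ * wG δ (cube3 k z) u = δ * gp (cube3 k z) u := by
    intro z _
    rw [wG_eq, card_cube3]
    push_cast
    field_simp
  rw [sum_congr rfl e1, ← mul_sum, wG_eq]
  calc _ ≤ δ * ((cube3 l p).card * gp (cube3 l p) u) := mul_le_mul_of_nonneg_left h5 hδ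
    _ = _ := by ring

/-! ### Partitions into arbitrary sets -/

theorem card_mul_six {c : ℝ} (hc : 0 < c) (S : Fin 6 → ℝ) (hS : ∀ j, 0 ≤ S j) :
    c * ∏ j, (c⁻¹ * S j) ^ (1 / 6 : ℝ) = ∏ j, S j ^ (1 / 6 : ℝ) := by
  have hi : (0 : ℝ) ≤ c⁻¹ := by positivity
  have e1 : ∀ j, (c⁻¹ * S j) ^ (1 / 6 : ℝ) = c⁻¹ ^ (1 / 6 : ℝ) * S j ^ (1 / 6 : ℝ) := fun j =>
    Real.mul_rpow hi (hS j)
  rw [prod_congr rfl fun j _ => e1 j, prod_mul_distrib, prod_const, card_univ, Fintype.card_fin]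
  have e2 : (c⁻¹ ^ (1 / 6 : ℝ)) ^ 6 = c⁻¹ := by
    rw [← Real.rpow_natCast, ← Real.rpow_mul hi]
    norm_num
  rw [e2, mul_inv_cancel_left₀ hc.ne']

/-- superadditivity for an arbitrary finite partition into nonempty sets -/
theorem wG_sum_le {ι : Type*} (s : Finset ι) (P : ι → Finset Pt) (Q : Finset Pt)
    (hd : (s : Set ι).PairwiseDisjoint P) (hP : ∀ i ∈ s, P i ⊆ Q) {δ : ℝ} (hδ : 0 ≤ δ) (u : Tri) :
    ∑ i ∈ s, wG δ (P i) u ≤ wG δ Q u := by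
  classical
  rcases Q.eq_empty_or_nonempty with rfl | hQ
  · refine (sum_nonpos fun i hi => ?_).trans (wG_nonneg hδ _ _)
    rw [wG_eq, subset_empty.1 (hP i hi)]
    simp
  have hc : (0 : ℝ) < Q.card := by exact_mod_cast hQ.card_pos
  -- weights `|P i| / |Q|` and Hölder for sums
  have hw6 : ∀ i ∈ s, ((P i).card : ℝ) * gp (P i) u =
      ∏ j, (∑ y ∈ P i, ga u j y) ^ (1 / 6 : ℝ) := by
    intro i _
    rcases (P i).eq_empty_or_nonempty with h0 | h0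
    · rw [h0]
      simp only [card_empty, Nat.cast_zero, zero_mul, sum_empty]
      rw [Real.zero_rpow (by norm_num)]
      simp
    · have hci : (0 : ℝ) < (P i).card := by exact_mod_cast h0.card_pos
      unfold gp avg
      exact card_mul_six hci _ fun j => sum_nonneg fun y _ => ga_nonneg u j y
  have hQ6 : (Q.card : ℝ) * gp Q u = ∏ j, (∑ y ∈ Q, ga u j y) ^ (1 / 6 : ℝ) := by
    unfold gp avg
    exact card_mul_six hc _ fun j => sum_nonneg fun y _ => ga_nonneg u j y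
  have e0 : ∀ i ∈ s, wG δ (P i) u = δ * ∏ j, (∑ y ∈ P i, ga u j y) ^ (1 / 6 : ℝ) := by
    intro i hi
    rw [wG_eq, mul_assoc, hw6 i hi]
  rw [sum_congr rfl e0, ← mul_sum, wG_eq, mul_assoc, hQ6]
  refine mul_le_mul_of_nonneg_left ?_ hδ
  rcases s.eq_empty_or_nonempty with rfl | hs
  · rw [sum_empty]
    exact prod_nonneg fun j _ => Real.rpow_nonneg (sum_nonneg fun y _ => ga_nonneg u j y) _
  -- Hölder for the sums over `s` via averages over `s`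
  have hcs : (0 : ℝ) < s.card := by exact_mod_cast hs.card_pos
  have h := avg_prod_rpow_le s (fun _ : Fin 6 => (1 / 6 : ℝ)) (fun _ => by norm_num)
    (by rw [Fin.sum_univ_six]; norm_num) (fun j i => ∑ y ∈ P i, ga u j y)
    (fun j i _ => sum_nonneg fun y _ => ga_nonneg u j y)
  have h2 : ∑ i ∈ s, ∏ j, (∑ y ∈ P i, ga u j y) ^ (1 / 6 : ℝ) ≤
      ∏ j, (∑ i ∈ s, ∑ y ∈ P i, ga u j y) ^ (1 / 6 : ℝ) := by
    unfold avg at h
    rw [inv_mul_le_iff₀ hcs] at h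
    exact h.trans (le_of_eq (card_mul_six hcs (fun j => ∑ i ∈ s, ∑ y ∈ P i, ga u j y)
      fun j => sum_nonneg fun i _ => sum_nonneg fun y _ => ga_nonneg u j y))
  refine h2.trans (prod_le_prod (fun j _ => Real.rpow_nonneg
    (sum_nonneg fun i _ => sum_nonneg fun y _ => ga_nonneg u j y) _) fun j _ => ?_)
  refine Real.rpow_le_rpow (sum_nonneg fun i _ => sum_nonneg fun y _ => ga_nonneg u j y) ?_
    (by norm_num)
  rw [← sum_biUnion hd]
  exact sum_le_sum_of_subset_of_nonneg (biUnion_subset.2 hP) fun y _ _ => ga_nonneg u j y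

/-! ### Calculus -/

theorem v2_mono {X : Type*} {Q : Finset X} {f g f' g' : X → ℝ} (hf : ∀ x ∈ Q, |f x| ≤ |f' x|)
    (hg : ∀ x ∈ Q, |g x| ≤ |g' x|) : v2 Q f g ≤ v2 Q f' g' := by
  unfold v2
  refine avg_mono fun x hx => ?_
  exact mul_le_mul (sq_le_sq.2 (hf x hx)) (sq_le_sq.2 (hg x hx)) (sq_nonneg _) (sq_nonneg _)

theorem v2_smul {X : Type*} (Q : Finset X) (f g : X → ℝ) (a b : ℝ) :
    v2 Q (fun x => a * f x) (fun x => b * g x) = a ^ 2 * b ^ 2 * v2 Q f g := by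
  unfold v2 avg
  have e : ∀ x ∈ Q, (a * f x) ^ 2 * (b * g x) ^ 2 = a ^ 2 * b ^ 2 * (f x ^ 2 * g x ^ 2) :=
    fun x _ => by ring
  rw [sum_congr rfl e, ← mul_sum]
  ring

/-- monotone in the three edges (pointwise on the set) -/
theorem wG_mono {δ : ℝ} (hδ : 0 ≤ δ) (Q : Finset Pt) {u u' : Tri}
    (h1 : ∀ y ∈ Q, |e12 u.1 y| ≤ |e12 u'.1 y|) (h2 : ∀ y ∈ Q, |e13 u.2.1 y| ≤ |e13 u'.2.1 y|)
    (h3 : ∀ y ∈ Q, |e23 u.2.2 y| ≤ |e23 u'.2.2 y|) : wG δ Q u ≤ wG δ Q u' := by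
  rw [wG_eq, wG_eq]
  refine mul_le_mul_of_nonneg_left ?_ (mul_nonneg hδ (Nat.cast_nonneg _))
  unfold gp
  refine prod_le_prod (fun i _ => Real.rpow_nonneg (avg_nonneg fun y _ => ga_nonneg u i y) _)
    fun i _ => Real.rpow_le_rpow (avg_nonneg fun y _ => ga_nonneg u i y) ?_ (by norm_num)
  refine avg_mono fun y hy => ?_
  have k1 := sq_le_sq.2 (h1 y hy)
  have k2 := sq_le_sq.2 (h2 y hy)
  have k3 := sq_le_sq.2 (h3 y hy)
  fin_cases i
  · exact k1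
  · exact k2
  · exact k3
  · exact mul_le_mul k1 k2 (sq_nonneg _) (sq_nonneg _)
  · exact mul_le_mul k1 k3 (sq_nonneg _) (sq_nonneg _)
  · exact mul_le_mul k2 k3 (sq_nonneg _) (sq_nonneg _)

theorem wG_congr (δ : ℝ) (Q : Finset Pt) {u u' : Tri}
    (h1 : ∀ y ∈ Q, |e12 u.1 y| = |e12 u'.1 y|) (h2 : ∀ y ∈ Q, |e13 u.2.1 y| = |e13 u'.2.1 y|)
    (h3 : ∀ y ∈ Q, |e23 u.2.2 y| = |e23 u'.2.2 y|) : wG δ Q u = wG δ Q u' := by
  rw [wG_eq, wG_eq]
  congr 1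
  unfold gp
  refine prod_congr rfl fun i _ => ?_
  congr 1
  refine avg_congr fun y hy => ?_
  have k1 := sq_eq_sq_iff_abs_eq_abs _ _ |>.2 (h1 y hy)
  have k2 := sq_eq_sq_iff_abs_eq_abs _ _ |>.2 (h2 y hy)
  have k3 := sq_eq_sq_iff_abs_eq_abs _ _ |>.2 (h3 y hy)
  fin_cases i
  · exact k1
  · exact k2
  · exact k3
  · show e12 u.1 y ^ 2 * e13 u.2.1 y ^ 2 = e12 u'.1 y ^ 2 * e13 u'.2.1 y ^ 2
    rw [k1, k2]
  · show e12 u.1 y ^ 2 * e23 u.2.2 y ^ 2 = e12 u'.1 y ^ 2 * e23 u'.2.2 y ^ 2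
    rw [k1, k3]
  · show e13 u.2.1 y ^ 2 * e23 u.2.2 y ^ 2 = e13 u'.2.1 y ^ 2 * e23 u'.2.2 y ^ 2
    rw [k2, k3]

/-- cut-offs and other factors bounded by one on the edges -/
theorem wG_cut {δ : ℝ} (hδ : 0 ≤ δ) (Q : Finset Pt) (u : Tri) {g1 g2 g3 : ℤ × ℤ → ℝ}
    (h1 : ∀ w, |g1 w| ≤ 1) (h2 : ∀ w, |g2 w| ≤ 1) (h3 : ∀ w, |g3 w| ≤ 1) :
    wG δ Q (fun w => g1 w * u.1 w, fun w => g2 w * u.2.1 w, fun w => g3 w * u.2.2 w) ≤
      wG δ Q u := by
  have key : ∀ a b : ℝ, |a| ≤ 1 → |a * b| ≤ |b| := fun a b h => by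
    rw [abs_mul]; exact mul_le_of_le_one_left (abs_nonneg _) h
  exact wG_mono hδ Q (fun y _ => key _ _ (h1 _)) (fun y _ => key _ _ (h2 _))
    (fun y _ => key _ _ (h3 _))

/-- scaling of the three edges -/
theorem wG_smul (δ : ℝ) (Q : Finset Pt) (u : Tri) (a b c : ℝ) :
    wG δ Q (fun w => a * u.1 w, fun w => b * u.2.1 w, fun w => c * u.2.2 w) =
      |a * b * c| * wG δ Q u := by
  have hn : ∀ (c : ℝ) (f : Pt → ℝ), n2 Q (fun y => c * f y) = |c| * n2 Q f := by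
    intro c f
    unfold n2 avg
    rw [← Real.sqrt_sq_eq_abs, ← Real.sqrt_mul (sq_nonneg _)]
    congr 1
    rw [sum_congr rfl fun x _ => (mul_pow c (f x) 2), ← mul_sum]
    ring
  unfold wG
  have e1 : e12 (fun w => a * u.1 w) = fun y => a * e12 u.1 y := rfl
  have e2 : e13 (fun w => b * u.2.1 w) = fun y => b * e13 u.2.1 y := rfl
  have e3 : e23 (fun w => c * u.2.2 w) = fun y => c * e23 u.2.2 y := rfl
  simp only [e1, e2, e3, hn, v2_smul]
  have p1 := n2_nonneg Q (e12 u.1)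
  have p2 := n2_nonneg Q (e13 u.2.1)
  have p3 := n2_nonneg Q (e23 u.2.2)
  have q1 := v2_nonneg Q (e12 u.1) (e13 u.2.1)
  have q2 := v2_nonneg Q (e12 u.1) (e23 u.2.2)
  have q3 := v2_nonneg Q (e13 u.2.1) (e23 u.2.2)
  have f1 : |a| * n2 Q (e12 u.1) * (|b| * n2 Q (e13 u.2.1)) * (|c| * n2 Q (e23 u.2.2)) =
      |a * b * c| * (n2 Q (e12 u.1) * n2 Q (e13 u.2.1) * n2 Q (e23 u.2.2)) := by
    rw [abs_mul, abs_mul]; ring
  have f2 : a ^ 2 * b ^ 2 * v2 Q (e12 u.1) (e13 u.2.1) *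
      (a ^ 2 * c ^ 2 * v2 Q (e12 u.1) (e23 u.2.2)) *
        (b ^ 2 * c ^ 2 * v2 Q (e13 u.2.1) (e23 u.2.2)) =
      |a * b * c| ^ (4 : ℕ) * (v2 Q (e12 u.1) (e13 u.2.1) * v2 Q (e12 u.1) (e23 u.2.2) *
        v2 Q (e13 u.2.1) (e23 u.2.2)) := by
    have : |a * b * c| ^ (4 : ℕ) = (a * b * c) ^ 4 := by
      rw [show (4 : ℕ) = 2 * 2 by norm_num, pow_mul, sq_abs, ← pow_mul]
    rw [this]; ring
  have g1 : 0 ≤ n2 Q (e12 u.1) * n2 Q (e13 u.2.1) * n2 Q (e23 u.2.2) := by positivity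
  have g2 : 0 ≤ v2 Q (e12 u.1) (e13 u.2.1) * v2 Q (e12 u.1) (e23 u.2.2) *
      v2 Q (e13 u.2.1) (e23 u.2.2) := by positivity
  have g3 : 0 ≤ |a * b * c| ^ (4 : ℕ) := by positivity
  rw [f1, f2, Real.mul_rpow (abs_nonneg _) g1, Real.mul_rpow g3 g2]
  have f3 : (|a * b * c| ^ (4 : ℕ)) ^ (1 / 6 : ℝ) = |a * b * c| ^ (2 / 3 : ℝ) := by
    rw [← Real.rpow_natCast, ← Real.rpow_mul (abs_nonneg _)]; norm_num
  have f4 : |a * b * c| ^ (1 / 3 : ℝ) * |a * b * c| ^ (2 / 3 : ℝ) = |a * b * c| := by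
    rw [← Real.rpow_add_of_nonneg (abs_nonneg _) (by norm_num) (by norm_num)]; norm_num
  rw [f3]
  calc _ = (|a * b * c| ^ (1 / 3 : ℝ) * |a * b * c| ^ (2 / 3 : ℝ)) * (δ * Q.card *
        (n2 Q (e12 u.1) * n2 Q (e13 u.2.1) * n2 Q (e23 u.2.2)) ^ (1 / 3 : ℝ) *
        (v2 Q (e12 u.1) (e13 u.2.1) * v2 Q (e12 u.1) (e23 u.2.2) *
          v2 Q (e13 u.2.1) (e23 u.2.2)) ^ (1 / 6 : ℝ)) := by ring
    _ = _ := by rw [f4]

theorem wG_delta (a δ : ℝ) (Q : Finset Pt) (u : Tri) : wG (a * δ) Q u = a * wG δ Q u := by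
  unfold wG; ring

theorem wG_eq_one (δ : ℝ) (Q : Finset Pt) (u : Tri) : wG δ Q u = δ * wG 1 Q u := by
  rw [← wG_delta, mul_one]

theorem wG_mono_delta {δ δ' : ℝ} (h : δ ≤ δ') (Q : Finset Pt) (u : Tri) :
    wG δ Q u ≤ wG δ' Q u := by
  rw [wG_eq_one δ, wG_eq_one δ']
  exact mul_le_mul_of_nonneg_right h (wG_nonneg zero_le_one Q u)

/-- subsets: the weight increases -/
theorem wG_le_of_subset {δ : ℝ} (hδ : 0 ≤ δ) {Q Q' : Finset Pt} (h : Q ⊆ Q') (u : Tri) :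
    wG δ Q u ≤ wG δ Q' u := by
  have := wG_sum_le {()} (fun _ : Unit => Q) Q' (by simp) (fun _ _ => h) hδ u
  simpa using this

end

end Vale.Agent.P141.H115g
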