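import Vale.Agent.P141.H115g.WG1
import Vale.Agent.P141.H238.GDef

/-!
# P141, line W: the natural weight, bridge to the letters of `H238/GDef`
-/

namespace Vale.Agent.P141.H115g

open Finset
open Vale.Agent.P141.PL (Pt)
open Vale.Agent.P141.PL.H315 (avg cube3 e12 e13 e23 Tri)
open Vale.Agent.P141.H922 (n2)

noncomputable section

theorem v2_eq238 {X : Type*} (Q : Finset X) (f g : X → ℝ) :
    Vale.Agent.P141.H238.v2 Q f g = v2 Q f g := rfl

theorem wG_eq238 (δ : ℝ) (Q : Finset Pt) (u : Tri) :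
    Vale.Agent.P141.H238.wG δ Q u = wG δ Q u := by
  unfold Vale.Agent.P141.H238.wG Vale.Agent.P141.H238.pG wG
  rw [v2_eq238, v2_eq238, v2_eq238]
  ring

theorem pG_eq238 (Q : Finset Pt) (u : Tri) : Vale.Agent.P141.H238.pG Q u = gp Q u := by
  rcases Q.eq_empty_or_nonempty with rfl | hQ
  · unfold Vale.Agent.P141.H238.pG gp Vale.Agent.P141.H238.v2 n2
    simp only [avg, card_empty, Nat.cast_zero, inv_zero, sum_empty, mul_zero, Real.sqrt_zero]
    rw [Real.zero_rpow (by norm_num), Real.zero_rpow (by norm_num)]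
    simp
  · have hc : (0 : ℝ) < Q.card := by exact_mod_cast hQ.card_pos
    have h := (wG_eq238 1 Q u).trans (wG_eq 1 Q u)
    unfold Vale.Agent.P141.H238.wG at h
    rw [one_mul] at h
    exact mul_left_cancel₀ hc.ne' h

/-- superadditivity in the letters of `H238/GDef` -/
theorem wG_super238 {δ : ℝ} (hδ : 0 ≤ δ) {k l : ℕ} (hkl : k ≤ l) (p : Pt) (u : Tri) :
    ∑ z ∈ cube3 l p, (8 ^ k : ℝ)⁻¹ * Vale.Agent.P141.H238.wG δ (cube3 k z) u ≤
      Vale.Agent.P141.H238.wG δ (cube3 l p) u := by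
  simp only [wG_eq238]
  exact wG_super hδ hkl p u

end

end Vale.Agent.P141.H115g
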